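import Vale.Agent.P283R.Cg.Sol
import Vale.Agent.P283R.Bg.Fin

/-!
# P283R, block BQ: finite quotients of varieties of bounded embedding dimension, the rings
-/

open Set

noncomputable section

namespace Vale.Agent.P283R.Bq

open Vale.Agent.P287D Vale.Agent.P283M Vale.Agent.P297Z Vale.Agent.P283R.Cx

/-- `Spec R` is a quotient `Y / G₀`, the embedding dimension of `Y` is at most `E`, and the action
of `H` comes from the action of a finite group `G` on `Y` -/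
def LE (N E : ℕ) {F : Type} [Field F] [Algebra ℂ F] (H : Subgroup (F ≃ₐ[ℂ] F))
    (R : Subalgebra ℂ F) : Prop :=
  ∃ (L : Type) (_ : Field L) (_ : Algebra ℂ L) (_ : Algebra F L) (_ : IsScalarTower ℂ F L)
    (G₀ G : Subgroup (L ≃ₐ[ℂ] L)) (S : Subalgebra ℂ L), Gq N G₀ S R ∧ G₀ ≤ G ∧ Finite G ∧
    Stab G S ∧ (∀ q : Ideal S, q.IsMaximal → Bx.Emd E S q) ∧
    (∀ σ ∈ G, ∃ τ ∈ H, ∀ x, σ (algebraMap F L x) = algebraMap F L (τ x)) ∧
    ∀ τ ∈ H, ∃ σ ∈ G, ∀ x, σ (algebraMap F L x) = algebraMap F L (τ x)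

open Cg.Sq in
/-- invariant sections on the quotients -/
theorem sole (hA : Bx.ABE) (N E Q : ℕ) (ε : ℝ) (Q0 : 0 < Q) (ε0 : 0 < ε) : Unif Q fun n =>
    ∀ (F : Type) [Field F] [Algebra ℂ F] (H : Subgroup (F ≃ₐ[ℂ] F)) (R : Subalgebra ℂ F)
      (p : Ideal R) (y : Fin N → F) (m : ℕ) (g h : F), Pr N H R y m g → LE N E H R → h ≠ 0 →
      (∀ P : Pl F, (P.ord g : ℝ) / m = P.ord h / Q) → (∀ P, PD R P → ld y m g P ≤ 1) →
      (∀ U : Pl F, (∀ x ∈ R, x ∈ U.ring) → ∀ e : ℕ, 0 < e → Dv H U e → ε * e ≤ ld y m g U) →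
      Sol n H R p (PD R) y m g := by
  obtain ⟨J, n₀, n0, A⟩ := hA N E Q ε Q0 ε0
  refine ⟨n₀ * Q * J.factorial, by positivity, ?_⟩
  rintro _ n1 ⟨n, rfl⟩ - F _ _ H R p y m g h pr
    ⟨L, _, _, _, _, G₀, G, S, gq, le, fi, st, em, dn, up⟩ h0 eq l1 hy U hU
  have n2 : 0 < n := Nat.pos_of_mul_pos_left n1
  have hF := pr.aff.ff
  have hL := gq.aff.ff
  obtain ⟨f1, f2, -⟩ := fre N F L G₀ S R gq
  have fx : ∀ x, Fix H x → Fix G (algebraMap F L x) := fun x hx σ hσ => by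
    obtain ⟨τ, a, b⟩ := dn σ hσ
    rw [b, hx τ a]
  have dw : ∀ {W : Pl L} {V : Pl F} {q : Ideal S}, Cen S q W → Lies (algebraMap F L) W V →
      ∀ x ∈ R, x ∈ V.ring := fun c l x hx => (l x).2 (c ⟨_, (gq.mem x).1 hx⟩).1
  obtain ⟨W, lW⟩ := Pb.up_alg hL U
  obtain ⟨p', c'⟩ := Tq.exists_cen (f2 W U lW fun x hx => (hU ⟨x, hx⟩).1).1
  have pp := Hr.cen_prime c'
  obtain ⟨M, hM, le'⟩ := p'.exists_le_maximal pp.ne_top
  have P : Pr N G S (fun i => algebraMap F L (y i)) m (algebraMap F L g) :=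
    ⟨gq.aff, gq.nor, fi, st, fun i => fx _ (pr.fy i),
      (ram N F L (IsScalarTower.toAlgHom ℂ F L) y hF hL pr.fr).1, pr.pos,
      (map_ne_zero _).2 pr.ne, fx _ pr.fg⟩
  obtain ⟨B, i, s⟩ := A (n₀ * Q * n) (by positivity) ⟨Q * n, by ring⟩ ⟨n₀ * n, by ring⟩ L G S
    p' M _ m _ (algebraMap F L h) P pp hM le' (em M hM)
    ⟨(map_ne_zero _).2 h0, fun V _ => by
      obtain ⟨V', l'⟩ := Pb.down hF hL V
      rw [l'.ord g, l'.ord h, Int.cast_mul, Int.cast_mul, mul_div_assoc, mul_div_assoc, eq V']⟩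
    (fun V ⟨q, _, c, lo⟩ => by
      obtain ⟨V', l'⟩ := Pb.down hF hL V
      obtain ⟨a, b⟩ := f1 V V' ⟨q, c, lo⟩ l'
      rw [ld_up hF hL pr.fr m g l', b, Int.cast_one, one_mul]
      exact l1 V' (pd_of (dw c l') a))
    fun q _ V c e e0 dv => by
      obtain ⟨V', l'⟩ := Pb.down hF hL V
      rw [ld_up hF hL pr.fr m g l']
      refine le_of_dv ε0 e0 l'.e_pos (T := {o | ∃ x, x ≠ 0 ∧ Fix H x ∧ V'.ord x = o}) ?_
        fun e' e1 k => hy V' (dw c l') e' e1 fun x x0 hx => k _ ⟨x, x0, hx, rfl⟩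
      rintro _ ⟨x, x0, hx, rfl⟩
      rw [← l'.ord x]
      exact dv _ ((map_ne_zero _).2 x0) (fx x hx)
  obtain ⟨φ, φ0, hφ, a, b⟩ := nt N J _ L G B S p' _ m _ (by positivity) P pp i s W c'
  obtain ⟨ψ, rfl⟩ := (gq.fix φ).1 fun σ hσ => hφ σ (le hσ)
  rw [mul_right_comm] at a b
  refine ⟨ψ, fun e => φ0 (by rw [e, map_zero]), fun τ hτ => ?_, fun V hV => ?_, ?_⟩
  · obtain ⟨σ, u, v⟩ := up τ hτ
    exact (algebraMap F L).injective ((v ψ).symm.trans (hφ σ u))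
  · obtain ⟨V', l'⟩ := Pb.up_alg hL V
    have e : (0 : ℝ) < V'.ord (algebraMap F L V.t) := by exact_mod_cast l'.e_pos
    have := a V' ((f2 V' V l' (prm_of hV).1).2 (prm_of hV).2)
    rw [l'.ord g, l'.ord ψ, Int.cast_mul, Int.cast_mul, mul_div_assoc, mul_div_assoc] at this
    exact le_of_mul_le_mul_left this e
  · have e : (0 : ℝ) < W.ord (algebraMap F L U.t) := by exact_mod_cast lW.e_pos
    rw [ld_up hF hL pr.fr _ ψ lW] at b
    exact (mul_pos_iff_of_pos_left e).1 b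

section

variable {K F : Type} [Field K] [Algebra ℂ K] [Field F] [Algebra ℂ F] [Algebra K F] {k N : ℕ}

/-- the theorem for the finite groups, for one ring of sections -/
def CorE (T : Set (Pl K)) (D : Pl K → Fin k → ℤ) (s : Fin N → K) (a : Fin N → Fin k → ℤ)
    {d : ℕ} (y : Fin d → K) (t : Fin k → F) (q : ℕ) (ε : ℝ) (m : ℕ) : Prop :=
  ∀ (h : K) (δ : Fin k → ℤ) (r : ℕ), h ≠ 0 →
    (∀ E ∈ T, q * kap y E ≤ (E.ord h + δ ⬝ᵥ D E : ℤ)) → 0 < r →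
    (∀ G : Subgroup (F ≃ₐ[ℂ] F), (G : Set _) = Gr K t r → ∀ U : Pl F,
      (∀ x ∈ Rg s a t, x ∈ U.ring) → ∀ e : ℕ, 0 < e → Dv G U e →
        ε * e ≤ lt y t U - (U.ord (hm t h δ) : ℝ) / q) →
    ∀ U : Pl F, (∀ x ∈ Rg s a t, x ∈ U.ring) → ∃ n : Fin N → ℕ,
      (∀ i, (r : ℤ) ∣ dg a n i + m * δ i) ∧
      ∑ j, (n j : ℝ) * U.ord (hm t (s j) (a j)) < q * m * (lt y t U - (U.ord (hm t h δ) : ℝ) / q)

variable [IsScalarTower ℂ K F] {n q m : ℕ} {t : Fin k → F} {s : Fin N → K} {a : Fin N → Fin k → ℤ}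
  {u : Finset K} {Λ Γ Γ' : BD K} {D : Pl K → Fin k → ℤ} {ε : ℝ}

open Tz in
/-- the assembly in the birational case, the field `K(t)` is given -/
theorem tope (hq : 0 < q) (hε : 0 < ε) (m2 : 2 ≤ m) (x : Ext K (n + 1) t)
    (cor : ∀ y : Fin (n + 1) → K, Frm y → CorE (Tt n u Λ) D s a y t q (min ε 1) m)
    (A : Dat n u Λ Γ Γ') (cx : Cox (Tt n u Λ) D s a) (all : ∀ e, ∃ φ ∈ Sp s a e, φ ≠ 0)
    (h3 : ∃ h e, Eqv (Tt n u Λ) D ((q : ℝ) • Γ) h e)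
    (bd : ∀ P ∈ Tt n u Λ, dsc (n + 1) Γ P ≤ 0) (lc : ∀ P, Ov u P → ε ≤ 1 + dsc (n + 1) Γ P)
    (nef : NefO n K u (-Γ)) : Cpl n (q * m) u Λ Γ := by
  obtain ⟨w, w0, hw⟩ := Bg.exists_w A cx all
  obtain ⟨h, δ, e3⟩ := h3
  obtain ⟨y, Dy, fy, ey⟩ := Cb.exists_cn A.ff
  have hy : Frm y := ⟨Dy, fy⟩
  have t0 := x.ind.ne_zero
  have q0 : (0 : ℝ) < q := Nat.cast_pos.2 hq
  have eq : ∀ E ∈ Tt n u Λ, q * kap y E ≤ (E.ord h + δ ⬝ᵥ D E : ℤ) := fun P p => by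
    have b2 := bd P p
    have b3 := e3.2 P p
    simp only [dsc, ey, Pi.sub_apply, Pi.smul_apply, smul_eq_mul] at b2 b3
    push_cast at b3 ⊢
    nlinarith
  have hyp : ∀ r : ℕ, 0 < r → ∀ G : Subgroup (F ≃ₐ[ℂ] F), (G : Set _) = Gr K t r → ∀ U : Pl F,
      (∀ x ∈ Rg s a t, x ∈ U.ring) → ∀ e : ℕ, 0 < e → Dv G U e →
        min ε 1 * e ≤ lt y t U - (U.ord (hm t h δ) : ℝ) / q := by
    intro r r0 G hG U hU e e0 dv
    have nf := Bg.nef_le A x hy cx hq w0 hw e3 nef hU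
    have e0' : (0 : ℝ) ≤ e := Nat.cast_nonneg _
    obtain ⟨tr, -⟩ | ⟨Q, l, w⟩ := dwn K F (n + 1) k y t x hy U
    · have z : ∀ e : Fin k → ℤ, 0 ≤ ∑ i, e i * U.ord (t i) := fun e => by
        obtain ⟨φ, p, φ0⟩ := all e
        have := Pl.ord_nonneg_of_mem _ (hU _ (hm_mem grd x hy p))
        rwa [Tz.ord_hm t0 U φ0, Trv.ord tr, zero_add] at this
      have z0 : ∀ i, U.ord (t i) = 0 := fun i => by
        have b1 := z (Pi.single i 1)
        have b2 := z (Pi.single i (-1))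
        rw [Finset.sum_eq_single i (fun j _ c => by simp [c]) (by simp), Pi.single_eq_same] at b1 b2
        omega
      obtain ⟨fr, sh⟩ := lar K F (n + 1) k y t x hy r r0
      have := hor _ F G _ U e x.ff' fr (fun i => by
        refine Fin.addCases (fun i => ?_) (fun i => ?_) i
        · simpa [zt] using fix_K hG _
        · simpa [zt] using fix_t hG _) (fun i => by
        refine Fin.addCases (fun i => ?_) (fun i => ?_) i
        · simpa [zt] using tr _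
        · simpa [zt] using pow_mem (Cb.mem_ord (z0 i).ge) r) dv
      rw [sh] at this
      simp only [z0, Int.cast_zero, Finset.sum_const_zero, mul_zero, add_zero] at this
      nlinarith [nf.2 tr, min_le_right ε 1]
    · have o := ov_of grd x hy cx hU l
      have := hyp_ver ey hε.le l hG dv (lc Q o) w (nf.1 Q l o)
      nlinarith [min_le_left ε 1]
  refine bak n k _ q m K u Λ Γ Γ' D s a y h δ A cx hy ey (by nlinarith) e3 fun Q o => ?_
  obtain ⟨U, u₀, l, e, d0, w⟩ := lif K F (n + 1) k y t x hy _ s a Q cx.ne (mon_ov A cx o)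
  obtain ⟨c', c1, c2⟩ := fin _ k a _ u₀ (-((m : ℤ) • δ)) _ d0 w fun r r0 =>
    (cor y hy h δ r e3.1 eq r0 (hyp r r0) U
      (rg_le fun j => (w j).1)).imp fun _ p => ⟨fun i => by simpa using p.1 i, p.2⟩
  exact ⟨c', c1, ld_pos t0 cx.ne l e hq (by omega) e3.1 c1 c2⟩

end

/-- the theorem for the finite groups, at one place -/
theorem core (hA : Bx.ABE) (E d k q : ℕ) (ε : ℝ) (q0 : 0 < q) (e0 : 0 < ε) : ∃ m : ℕ, 2 ≤ m ∧
    ∀ (K F : Type) [Field K] [Algebra ℂ K] [Field F] [Algebra ℂ F] [Algebra K F]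
      [IsScalarTower ℂ K F] (N : ℕ) (y : Fin d → K) (t : Fin k → F) (T : Set (Pl K))
      (D : Pl K → Fin k → ℤ) (s : Fin N → K) (a : Fin N → Fin k → ℤ), Ext K d t → Frm y →
      Cox T D s a → (∀ (r : ℕ) (H : Subgroup (F ≃ₐ[ℂ] F)), 0 < r → (H : Set _) = Gr K t r →
        LE (d + k) E H (Rg s a t)) → CorE T D s a y t q ε m := by
  obtain ⟨n₀, n0, H⟩ := sole hA (d + k) E q ε q0 e0
  refine ⟨2 * n₀, by omega, ?_⟩
  intro K F _ _ _ _ _ _ N y t T D s a x fy cx lq h δ r h0 he r0 hy U hU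
  have ht := x.ind.ne_zero
  have A := aff K F d k y t x fy _ T D s a cx
  have M := nor_of gav K F d k y t x fy _ T D s a cx
  obtain ⟨G, g0', g1, g2, g3, g4⟩ := grp K F d k y t x fy r r0
  obtain ⟨l1, l2⟩ := lar K F d k y t x fy r r0
  obtain ⟨p, hp⟩ := Tq.exists_cen hU
  have q' : (0 : ℝ) < q := Nat.cast_pos.2 q0
  have r' : (0 : ℝ) < r := Nat.cast_pos.2 r0
  refine Cr.back ht cx.ne h0 q0 r0 (by positivity) A M g4 l2 hp
    (H (q * (2 * n₀)) (by positivity) ((dvd_mul_left _ _).mul_left _) (dvd_mul_right _ _) F G _ p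
      _ _ _ (Cr.tw t h δ q r 1) (Cr.pr ht h0 q0 r0 A M g1 (g2 _ s a) g3 l1) (lq r G r0 g0')
      (hm_ne ht (pow_ne_zero _ h0) _) (fun R => ?_) (fun R c => ?_) fun V hV e e1 v => ?_)
  · rw [Cr.ord_tw ht h0, Cr.ord_tw ht h0]
    push_cast
    field_simp
  · rw [Cr.ld_tw ht h0 q0 r0 l2]
    obtain ⟨E, hE, v⟩ | z := pdv_of grd gav K F d k y t x fy _ T D s a cx R c
    · rw [v.lt, v.ord _ _ h0, add_sub_assoc, add_le_iff_nonpos_right, sub_nonpos,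
        le_div_iff₀ q', mul_comm]
      exact he E hE
    · rw [kah K F d k y t x fy _ T D s a cx R c z, z _ _ h0]
      simp
  · rw [Cr.ld_tw ht h0 q0 r0 l2]
    exact hy G g0' V hV e e1 v

end Vale.Agent.P283R.Bq
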