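import Vale.Agent.P283R.Bq.Sol
import Vale.Agent.P283R.Bx.Cov
import Vale.Agent.P283R.Cg.Grq
import Vale.Agent.P283R.Cg.Adp
import Vale.Agent.P283R.Cg.Top
import Vale.Agent.P283R.Sl.Cv

/-!
# P283R, block BQ: from the text to the rings, the tier and the scheme side
-/

open Set CategoryTheory AlgebraicGeometry

noncomputable section

namespace Vale.Agent.P283R.Bq

open Vale.Agent.P287D Vale.Agent.P283M Vale.Agent.P297Z

section

open Vale.Agent.P283R.Cx Vale.Agent.P283R.Bx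
open Vale.Agent.P283R.Sl (Laurent RatT)

section

variable {F L S : Type} [Field F] [Algebra ℂ F] [Field L] [Algebra ℂ L] [Algebra F L]
  [CommRing S] [Algebra ℂ S] {q : S →ₐ[ℂ] L} {G : Subgroup (S ≃ₐ[ℂ] S)} {A : Subalgebra ℂ F}

theorem hom (h : Cov q G A) (g : S ≃ₐ[ℂ] S) : ∃ σ : L →ₐ[ℂ] L, ∀ s, σ (q s) = q (g s) := by
  have := Cv.frac h
  let e := AlgEquiv.ofInjective q h.inj
  have i : Function.Injective (q.comp (g.toAlgHom.comp e.symm.toAlgHom)) :=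
    h.inj.comp (g.injective.comp e.symm.injective)
  exact ⟨IsFractionRing.liftAlgHom i, fun s => (IsFractionRing.lift_algebraMap i (e s)).trans
    (congrArg (fun z => q (g z)) (e.symm_apply_apply s))⟩

theorem aut (h : Cov q G A) (g : S ≃ₐ[ℂ] S) : ∃ σ : L ≃ₐ[ℂ] L, ∀ s, σ (q s) = q (g s) := by
  obtain ⟨σ, a⟩ := hom h g
  obtain ⟨τ, b⟩ := hom h g⁻¹
  exact ⟨.ofAlgHom σ τ (Cv.ext h fun s => by
      rw [AlgHom.comp_apply, b, a]; exact congrArg q (g.apply_symm_apply s))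
    (Cv.ext h fun s => by
      rw [AlgHom.comp_apply, a, b]; exact congrArg q (g.symm_apply_apply s)), a⟩

theorem fin_im (h : Cov q G A) (G' : Subgroup (S ≃ₐ[ℂ] S)) [Finite G'] :
    Finite (Qu.im q G') := by
  choose σ hσ using aut h
  refine Finite.of_surjective (fun g : G' => (⟨σ g, g, g.2, hσ g⟩ : Qu.im q G')) ?_
  rintro ⟨τ, g, a, b⟩
  exact ⟨⟨g, a⟩, Subtype.ext (AlgEquiv.coe_toAlgHom_injective
    (Cv.ext h fun s => (hσ g s).trans (b s).symm))⟩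

variable {K : Type} [Field K] [Algebra ℂ K] [Algebra K F] [IsScalarTower ℂ K F]
  [IsScalarTower ℂ F L] {d k N E e r : ℕ} {t : Fin k → F} {s : Fin N → K} {a : Fin N → Fin k → ℤ}

/-- the finite group `G θ(μ)` -/
theorem gre {θ : (Fin k → ℂˣ) →* (S ≃ₐ[ℂ] S)} {H : Subgroup (F ≃ₐ[ℂ] F)} (x : Ext K d t)
    (h : Cov q G (Rg s a t))
    (em : ∀ m : Ideal S, m.IsMaximal → ∃ z : Fin E → S, m = Ideal.span (range z) ⊔ m ^ 2)
    (e0 : 0 < e) (cm : ∀ τ, ∀ g ∈ G, θ τ * g = g * θ τ)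
    (ac : ∀ τ (φ : K) m x, algebraMap F L (hm t φ m) = q x → θ τ x = (∏ j, τ j ^ (e * m j)) • x)
    (r0 : 0 < r) (hH : (H : Set _) = Gr K t r) : LE (d + k) E H (Rg s a t) := by
  have := h.fin
  have := Cg.Gz.fin_big θ cm (Nat.mul_pos e0 r0)
  have gq := Cv.gq x.ff' h
  have key : ∀ (σ : L ≃ₐ[ℂ] L) (ρ : F ≃ₐ[ℂ] F) (τ : Fin k → ℂˣ), ∀ g ∈ G,
      (∀ s, σ (q s) = q ((g * θ τ) s)) → (∀ φ : K, ρ (algebraMap K F φ) = algebraMap K F φ) →
      (∀ i, ρ (t i) = ((τ i : ℂ) ^ e) • t i) →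
      ∀ y, σ (algebraMap F L y) = algebraMap F L (ρ y) := fun σ ρ τ g hg h1 h2 h3 y => by
    have k : ∀ y ∈ Rg s a t, σ (algebraMap F L y) = algebraMap F L (ρ y) := fun y hy => by
      induction hy using Algebra.adjoin_induction with
      | mem y hy =>
        obtain ⟨j, rfl⟩ := hy
        obtain ⟨z, z1, z2⟩ := (h.inv _).1 ⟨_, gen_mem s a t j, rfl⟩
        beta_reduce
        rw [Grp.map_hm h2 h3, ← z2, h1, AlgEquiv.mul_apply, ac τ _ _ z z2.symm, Units.smul_def,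
          map_smul, map_smul, z1 g hg, z2, Algebra.smul_def,
          Algebra.smul_def, map_mul, ← IsScalarTower.algebraMap_apply]
        simp [zpow_mul]
      | algebraMap y => rw [ρ.commutes, ← IsScalarTower.algebraMap_apply, σ.commutes]
      | add y z _ _ u v => rw [map_add, map_add, map_add, map_add, u, v]
      | mul y z _ _ u v => rw [map_mul, map_mul, map_mul, map_mul, u, v]
    obtain ⟨b, hb, b', hb', -, rfl⟩ := h.frK y
    rw [map_div₀, map_div₀, map_div₀, map_div₀, k b hb, k b' hb']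
  refine ⟨L, inferInstance, inferInstance, inferInstance, inferInstance, Qu.im q G,
    Qu.im q (Cg.Gz.big G θ cm (e * r)), q.range, gq, ?_, fin_im h _, ?_, Cv.emd h em,
    ?_, fun ρ hρ => ?_⟩
  · rintro σ ⟨g, a, b⟩
    exact ⟨g, ⟨g, a, 1, one_pow _, by rw [map_one, mul_one]⟩, b⟩
  · rintro σ ⟨g, -, b⟩ _ ⟨y, rfl⟩
    exact ⟨g y, (b y).symm⟩
  · rintro σ ⟨_, ⟨g, a, τ, b, rfl⟩, w⟩
    obtain ⟨ρ, h2, h3⟩ := Grp.aut x (c := fun i => (τ i : ℂ) ^ e) fun i => pow_ne_zero _ (τ i).ne_zero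
    refine ⟨ρ, (hH ▸ ⟨h2, fun i => ⟨_, ?_, h3 i⟩⟩ : ρ ∈ (H : Set _)), key σ ρ τ g a w h2 h3⟩
    rw [← pow_mul, ← Units.val_pow_eq_pow_val, ← Pi.pow_apply, b]
    rfl
  · obtain ⟨h2, h3⟩ : ρ ∈ Gr K t r := hH ▸ hρ
    choose u u1 u2 using h3
    choose v hv using fun i => IsAlgClosed.exists_pow_nat_eq (u i) e0
    have v0 : ∀ i, v i ≠ 0 := fun i z => by simpa [← hv i, z, e0.ne', r0.ne'] using u1 i
    have m : θ (fun i => Units.mk0 (v i) (v0 i)) ∈ Cg.Gz.big G θ cm (e * r) :=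
      ⟨1, one_mem _, _, funext fun i => Units.ext (by simp [pow_mul, hv, u1]), (one_mul _).symm⟩
    obtain ⟨σ, w⟩ := aut h (θ fun i => Units.mk0 (v i) (v0 i))
    exact ⟨σ, ⟨_, m, w⟩, key σ ρ _ 1 (one_mem _) (by simpa using w) h2 fun i => by
      rw [u2, ← hv]; rfl⟩

end

/-- the cover on the tier -/
theorem cov {F S : Type} [Field F] [Algebra ℂ F] [CommRing S] [IsDomain S] [Algebra ℂ S] {E : ℕ}
    {A₀ : Set F} {G : Subgroup (S ≃ₐ[ℂ] S)} {i : F →ₐ[ℂ] FractionRing S}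
    (l : Sl.IsCover E A₀ G i) : letI := i.toRingHom.toAlgebra
    ∃ A : Subalgebra ℂ F, (∀ b, b ∈ A ↔ b ∈ A₀) ∧
      ((∀ a : F, ∃ b ∈ A, ∃ b' ∈ A, b' ≠ 0 ∧ a = b / b') →
        Cov (IsScalarTower.toAlgHom ℂ S (FractionRing S)) G A) := by
  let _ := i.toRingHom.toAlgebra
  let j : S →ₐ[ℂ] FractionRing S := IsScalarTower.toAlgHom ℂ _ _
  have hj : Function.Injective j := IsFractionRing.injective S _
  have := l.normal
  let V : Subalgebra ℂ S :=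
    { carrier := {s | ∀ g ∈ G, g s = s}
      mul_mem' := fun a b g hg => by simp only [map_mul, a g hg, b g hg]
      add_mem' := fun a b g hg => by simp only [map_add, a g hg, b g hg]
      algebraMap_mem' := fun r g _ => by rw [g.commutes] }
  have mA : ∀ b, b ∈ (V.map j).comap i ↔ b ∈ A₀ := fun b =>
    (l.inv (i b)).symm.trans ⟨fun ⟨a, ha, h⟩ => i.injective h ▸ ha, fun h => ⟨b, h, rfl⟩⟩
  refine ⟨(V.map j).comap i, mA, fun frK => ⟨l.finiteType, hj, fun b => ?_, fun b hb => ?_,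
    l.finite, l.free, fun b => ?_, frK⟩⟩
  · obtain ⟨s, t, t0, rfl⟩ := IsFractionRing.div_surjective (A := S) b
    exact ⟨s, t, (map_ne_zero_iff j hj).2 (nonZeroDivisors.ne_zero t0), rfl⟩
  · let e := AlgEquiv.ofInjective j hj
    have := hb.map_of_comp_eq (e.symm : j.range →+* S) (RingHom.id _)
      (RingHom.ext fun a => congrArg Subtype.val (e.apply_symm_apply a))
    exact IsIntegrallyClosed.isIntegral_iff.1 this
  · exact ((exists_congr fun a => and_congr_left' (mA a)).trans (l.inv b)).trans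
      (exists_congr fun s => and_congr_left' (forall₂_congr fun g _ => hj.eq_iff.symm))

variable {K : Type} [Field K] [Algebra ℂ K] {d k E : ℕ}

open Cg Cg.Adp in
/-- from the text to the rows -/
theorem ade {T : Set (Pl K)} {D : Pl K → Fin k → ℤ} (hK : FF K d)
    (gc : Sl.GradedCover E (Sec T D))
    (fin : ∀ (φ : K) e, {P | P ∈ T ∧ P.ord φ + e ⬝ᵥ D P ≠ 0}.Finite) (den : Den T D) :
    ∃ (N : ℕ) (s : Fin N → K) (a : Fin N → Fin k → ℤ), Cox T D s a ∧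
      ∀ (r : ℕ) (H : Subgroup (RatT K k ≃ₐ[ℂ] RatT K k)), 0 < r →
        (H : Set _) = Gr K (tt K k) r → LE (d + k) E H (Rg s a (tt K k)) := by
  obtain ⟨S, _, _, e, G, i, θ, e0, l, h1, h3⟩ := gc
  have := l.domain
  have x : Ext K d (tt K k) := Adp.ext hK
  have t0 := x.ind.ne_zero
  let L := FractionRing S
  let _ : Algebra (RatT K k) L := i.toRingHom.toAlgebra
  have : IsScalarTower ℂ (RatT K k) L := .of_algebraMap_eq fun c => (i.commutes c).symm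
  obtain ⟨A, mA, Q⟩ := cov l
  have s0 : ∀ e, (0 : K) ∈ Sec T D e := fun _ h => (h rfl).elim
  have hA : ∀ b, b ∈ A ↔ ∃ ψ : (Fin k → ℤ) →₀ K, (∀ e, ψ e ∈ Sec T D e) ∧ lv (tt K k) ψ = b :=
    fun b => (mA b).trans ⟨fun ⟨p, hp, w⟩ => ⟨p.coeff, hp, (alg_lv p).symm.trans w⟩,
      fun ⟨ψ, hp, w⟩ => ⟨.ofCoeff ψ, hp, (alg_lv _).trans w⟩⟩
  have hm_mem : ∀ e, ∀ φ ∈ Sec T D e, hm (tt K k) φ e ∈ A := fun e φ h =>
    (hA _).2 ((Gen.hm_iff x.ind s0 φ e).2 h)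
  have clr : ∀ p : Laurent K k, ∃ c ∈ A, c ≠ 0 ∧ c * algebraMap _ (RatT K k) p ∈ A := fun p => by
    induction p using AddMonoidAlgebra.induction_linear with
    | zero => exact ⟨1, one_mem A, one_ne_zero, by simp⟩
    | add a b ha hb =>
      obtain ⟨u, u1, u2, u3⟩ := ha
      obtain ⟨v, v1, v2, v3⟩ := hb
      refine ⟨u * v, mul_mem u1 v1, mul_ne_zero u2 v2, ?_⟩
      rw [map_add, mul_add, mul_right_comm, mul_assoc u v]
      exact add_mem (mul_mem u3 v1) (mul_mem u1 v3)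
    | single m φ =>
      obtain ⟨e', ψ, a1, a2, a3⟩ := den φ m
      refine ⟨_, hm_mem _ _ a1, hm_ne t0 a2 _, ?_⟩
      rw [alg_single, mul_comm, ← hm_mul t0]
      exact hm_mem _ _ a3
  have Q := Q fun b => by
    obtain ⟨p, p', p0, rfl⟩ := IsFractionRing.div_surjective (A := Laurent K k) b
    obtain ⟨u, u1, u2, u3⟩ := clr p
    obtain ⟨v, v1, v2, v3⟩ := clr p'
    have := (map_ne_zero_iff _ (IsFractionRing.injective (Laurent K k) (RatT K k))).2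
      (nonZeroDivisors.ne_zero p0)
    refine ⟨_, mul_mem v1 u3, _, mul_mem u1 v3, mul_ne_zero u2 (mul_ne_zero v2 this), ?_⟩
    field_simp
  obtain ⟨N, s, a, s1, rfl, s2⟩ := Gen.gen_of x.ind s0 hA (Gen.fg_gq (Cv.gq x.ff' Q))
  refine ⟨N, s, a, ⟨s1, fun e φ φ0 => (s2 e φ).trans
    ⟨fun h => h φ0, fun h _ => h⟩, fin, fun φ => ?_, fun e => ?_⟩, fun r H r0 hH =>
    gre x Q l.embdim e0 h1 (fun τ φ m y h => ?_) r0 hH⟩
  · obtain ⟨e', ψ, a1, a2, a3⟩ := den φ 0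
    rw [zero_add] at a3
    exact ⟨e', _, (s2 _ _).2 a3, _, (s2 _ _).2 a1, a2, (mul_div_cancel_right₀ φ a2).symm⟩
  · obtain ⟨e', ψ, a1, a2, a3⟩ := den 1 e
    rw [one_mul] at a3
    exact ⟨e', _, (s2 _ _).2 a3, _, (s2 _ _).2 a1, a2, a2⟩
  · exact h3 τ m _ ⟨_, ⟨φ, rfl⟩, alg_single m φ⟩ y h

/-- **the tier statement**, birational case -/
theorem qe (hA : ABE) (n E k q : ℕ) (ε : ℝ) (q0 : 0 < q) (e0 : 0 < ε) : ∃ M : ℕ, 1 ≤ M ∧
    ∀ (K : Type) [Field K] [Algebra ℂ K] (u : Finset K) (Λ Γ Γ' : BD K) (D : Fin k → Pl K → ℤ),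
      Dat n u Λ Γ Γ' → Cox.Bir u → (∀ i, {P | Ov u P ∧ On n Λ P ∧ D i P ≠ 0}.Finite) →
      Sl.GradedCover E (Cg.Sec (Tt n u Λ) fun P i => D i P) → Cox.Sp n u Λ D ((q : ℝ) • Γ) →
      (∀ P, Ov u P → ε ≤ 1 + dsc (n + 1) Γ P) →
      (∀ P, Ov u P → On n Λ P → dsc (n + 1) Γ P ≤ 0) → NefO n K u (-Γ) → Cpl n M u Λ Γ := by
  obtain ⟨m, m2, H⟩ := core hA E (n + 1) k q (min ε 1) q0 (lt_min e0 one_pos)
  refine ⟨q * m, Nat.mul_pos q0 (by omega), fun K _ _ u Λ Γ Γ' D d b h g h2 h3 h4 h5 => ?_⟩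
  obtain ⟨N, s, a, cx, lq⟩ := ade d.ff g (Cg.fin_of d h)
    fun φ e => ⟨0, (add_zero e).symm ▸ Cg.den0 d b h φ e⟩
  have x := Cg.Adp.ext (k := k) d.ff
  refine tope q0 e0 m2 x (fun y hy => H K _ N y _ _ _ s a x hy cx lq) d cx (fun e => ?_)
    (Ad.eqv h2) (fun P t => h4 P t.1 t.2) h3 h5
  obtain ⟨ψ, -, z, w⟩ := Cg.den0 d b h 1 e
  rw [one_mul] at w
  exact ⟨ψ, (cx.sec e ψ z).2 (w z), z⟩

end

open Vale.Agent.P289 (Pt St toRat DForm dimension)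
open Vale.Agent.P283M.Stm Vale.Agent.P283M.Stm.Var Vale.Agent.P283M.Br Vale.Agent.P283R.Sch
open Vale.Agent.P283R.Cox

/-- the scheme side -/
theorem sch (hA : Bx.ABE) (n E k r : ℕ) (ε : ℝ) (hr : 0 < r) (hε : 0 < ε) : ∃ M : ℕ, 1 ≤ M ∧
    ∀ (X Z : Var) (f : X.X ⟶ Z.X) (ω : DForm ℂ X.K (n + 1)) (B : X.QDiv) (z : Pt Z.X)
      (V : Z.X.Opens) (D : Fin k → X.PrimeDiv →₀ ℤ), dimension X.str = (n + 1 : ℕ) → ω.Nonzero →
      Pair (ε ≤ ·) ⊤ ω B → Contraction f → FanoType f ω → NefOver f (-logCan ω B) →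
      IsClosed ({z} : Set (Pt Z.X)) → Stm.Birational f → IsAffineOpen V → z ∈ V →
      Sl.GradedCover E (fun m => {φ : X.K | φ ≠ 0 → ∀ E : X.PrimeDiv, E.1 ∈ f ⁻¹ᵁ V →
        0 ≤ ord φ E + ∑ i, m i * D i E}) → InSpan (f ⁻¹ᵁ V) D (fun E => r * logCan ω B E) →
      HasKltComplement f ω B M z := by
  obtain ⟨M, M1, hM⟩ := qe hA n E k r ε hr hε
  refine ⟨M, M1, fun X Z f ω B z V D hdim hω hB hf hF hn hz hp hV zV h1 h3 => ?_⟩
  obtain ⟨u, bs⟩ := basV hf hz hV zV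
  have hK := ffd X _ hdim
  obtain ⟨Λ, Γ, Γ', a, on, b, b', c, e⟩ := dataW hK hω hB hf hF bs
  obtain ⟨j, j0, fr⟩ := frm X _ hK ω hω
  choose Q e' o using pl_of (X := X) plc
  refine e M M1 (hM X.K u Λ Γ Γ' (fun i => up (D i)) a (fun x => ?_)
    (fun i => ((D i).support.finite_toSet.image Q).subset ?_) ?_
    (sp_of bs on h3 (pow_ne_zero r j0) fun P E c dm => ?_) b
    ((all_iff bs on (p := fun E => 0 ≤ B E) fun P E c dm => ?_).1 fun E _ => hB.1 E trivial)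
    (c hn))
  · obtain ⟨p, hp⟩ := hp
    obtain ⟨A, χ, hA⟩ := P283R.Br.exists_bs hf hp hV zV hz
    obtain ⟨a, ha, b, hb, h⟩ := hA.frK hV zV x
    exact ⟨a, bs.con a ((hA.mem a).1 ha), b, bs.con b ((hA.mem b).1 hb), h⟩
  · rintro P ⟨a, b, c⟩
    obtain ⟨x, hx, dm⟩ := bs.ctr P.ring P.con a
    rw [up_eq (E := ⟨x, (on P x hx dm).1 b⟩) _ dm] at c
    refine ⟨_, Finsupp.mem_support_iff.2 c, Pl.ext' (congrArg _ (Pl.eq_of_le'
      (v := (Q _).toPlace) (w := P.toPlace) fun g hg => (dm g ((e' _ g).1 hg)).1))⟩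
  · refine (congrArg (Sl.GradedCover E) (funext fun m => Set.ext fun φ => imp_congr_right fun _ =>
      (all_iff bs on (q := fun P => 0 ≤ P.ord φ + cf (fun i => up (D i)) m P)
        fun P E _ dm => by rw [cf_eq D m dm, ord_eq dm]).trans
        ⟨fun H P t => H P t.1 t.2, fun H P o c => H P ⟨o, c⟩⟩)).mp h1
  · have h4 := b' P E c dm
    have h5 := fr X _ E P (is_of_dom dm) (ord_eq dm)
    rw [dsc, Pi.sub_apply] at h4
    rw [logCan, Pl.ord_pow, Pi.smul_apply, smul_eq_mul]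
    push_cast
    rw [h5]
    linear_combination r * h4
  · rw [b' P E c dm, neg_nonpos, Rat.cast_nonneg]

end Vale.Agent.P283R.Bq

namespace Vale.Agent.P283R.Sl

open Var

/-- birational contractions -/
theorem on_cover (hA : Bx.ABE) {q : ℕ} (hq : 1 ≤ q) (N : ℕ) :
    On fun _ _ _ f ω B z => FanoType f ω ∧ NefOver f (-logCan ω B) ∧ (∃ p, IsPull f p) ∧
      CoxCover N q f ω B z := by
  intro d hd ε hε R hR
  obtain ⟨n, rfl⟩ : ∃ n, d = n + 1 := ⟨d - 1, by omega⟩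
  choose M M1 H using fun k => Bq.sch hA n N k q ε hq hε
  refine ⟨∏ k ∈ Finset.range (N + 1), M k, Finset.one_le_prod' fun k _ => M1 k,
    fun X Z f ω B z a b c _ s t ⟨u1, u2, u3, k, V, D, l, hV, zV, h1, h3⟩ => ?_⟩
  exact ((has_iff f ω B _ z).2 (H k X.o Z.o f ω B z V D a b ((pair_iff _ _ ω B).1 c) s
    ((fanoType_iff f ω).1 u1) ((nefOver_iff f _).1 u2) t u3 hV zV h1 h3)).of_dvd
    (Finset.dvd_prod_of_mem _ (Finset.mem_range.2 (Nat.lt_succ_of_le l)))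

end Vale.Agent.P283R.Sl
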